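import Crest.Agent.X212.Nd18.Aps
import Crest.Agent.X212.Nk89.Dic
import Crest.Agent.X212.Map77.Num

/-! # Row 212, IND (helper61): **IX-CLO**, the index on a closed manifold -/

set_option autoImplicit false
set_option linter.unusedSectionVars false
noncomputable section
open scoped Manifold ContDiff Topology InnerProductSpace
open MeasureTheory Set Function Filter

namespace Crest.Agent.X212.Ixc61
open An M Cyf70 Mod61 Map77 Nk89 Idg99 Nd18 Sob92 Prm93

section gen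
variable {E : Type} [NormedAddCommGroup E] [NormedSpace ℝ E] [FiniteDimensional ℝ E]
  [MeasurableSpace E] [BorelSpace E]
  {HM : Type} [TopologicalSpace HM] {I : ModelWithCorners ℝ E HM} [I.Boundaryless]
  {M : Type} [TopologicalSpace M] [ChartedSpace HM M] [IsManifold I ∞ M]
  [MeasurableSpace M] [T2Space M] [BorelSpace M] [SecondCountableTopology M]
  {ι lam : Type} [Fintype ι] [Fintype lam] {T : Type} [NormedAddCommGroup T] [NormedSpace ℝ T]
  {𝔉 : Mod61.Fam I M ι lam T} {o : Ref 𝔉} {r n m k : ℕ} {e : T → PtX M ι lam r n m}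

theorem rem_self (F : Fr I M ι) : rem F F.toPre = F := by
  have : (rem F F.toPre).dv = F.dv := funext₂ fun a x => Met55.dvg_eq isOpen_univ
    (fun y _ => F.sm a y) (fun f h1 h2 _ => F.ibp a f h1 h2) (fun y _ => F.dv_sm a y) (mem_univ x)
  cases F
  simp only [rem] at this ⊢
  congr

/-- on a closed manifold the index is that of the local operator -/
theorem idx_of_fr [CompactSpace M] (h : 𝔉.OK) (he : Aff o (Fs 𝔉) r n m e) (hk : 7 ≤ k)
    (y : Pnt o r) {d : ℤ} (hF : Fred93.Fr (((bd o).full (Fs 𝔉 y.t) (uy y)).H (Fs 𝔉 y.t) k) d) :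
    Idx k e y d := by
  have a := adj_rem h
  obtain ⟨g, h1, h2⟩ := he k hk
  have hf := a.repF h1 h2
  have H := a.hy o y.ht
  have h3 : Fred93.Fr ((bd o).FF 𝔉.F0.toPre (Fs 𝔉 y.t) k (uy y)) d :=
    H.toTw.fr (H.nc_full (cb_uy h y)) hF
  have h4 : IsCompactOperator (𝔉.F0.incl (k + 1) k (bd o).pE) := Cht98.rellich k.lt_succ_self
  refine (idx_iff h (by omega) hf y).2 ((h3.add_compact (T := iH2 _ k o.Pg _ ∘L 𝔉.F0.incl (k + 1) k _ ∘L
    sY o n m (k + 1) ∘L fderiv ℝ g (y.pt k) ∘L sC' o r k y.t)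
    ((h4.comp_clm _).clm_comp _)).congr fun x => ?_)
  have e1 := a.fderiv_aff (by omega) y h1 h2 hf x
  simp only [TG, _root_.add_apply, ContinuousLinearMap.comp_apply, e1, H.FF_eq (cb_uy h y), map_add,
    add_assoc]

end gen

variable {κ lam : Type} [Fintype κ] [Fintype lam] {Z : Mf 4} [CompactSpace Z.M] {b : BG κ lam Z}
  {O : Set Z.M} {δ : ℝ}

theorem ok_clo (h : b.OK O) : (cst T0 b.B b.G b.O O).OK :=
  ok_cst h.B h.G (Cht98.exists_tame _ Z.dim.le) (fun i j k l => Cb_of_compact (h.B.so i j k l))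
    (Cb_of_compact h.B.sl) (fun a => Cb_of_compact (h.G.con.sm a)) h.cl h.cl' h.sub

/-- the constant family without ends -/
def grC (h : b.OK O) [IsEmpty b.A] (hδ : 0 < δ) : b.GR O δ where
  T := T0
  𝔉 := cst T0 b.B b.G b.O O
  X := ⟨Empty, Empty.elim, 0, 1, ok_clo h, Cht98.exists_tame _ Z.dim.le, Wt.refl _,
    fun _ => le_rfl, fun a => Cb_of_compact (b.G.F.sm_D contMDiff_const a),
    fun x => by simp [Pre.D_def, dv_zero], hδ, one_pos, fun a => a.elim, fun a => a.elim,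
    isClosed_compl_iff.2 (by simp) |>.isCompact⟩
  t := 0
  ht := trivial
  f := @Equiv.equivOfIsEmpty _ _ _ ⟨fun a => a.1.elim⟩
  K := isEmptyElim
  hB := rfl
  hG := rfl
  hO := rfl
  hO' := rfl
  hP := isEmptyElim
  hψ := isEmptyElim

variable (κ lam) in
/-- **IX-CLO** -/
theorem cloStmt {k : ℕ} (hk : 7 ≤ k) : CloStmt κ lam k := fun Z _ b O c _ h hc δ hδ _ => by
  have H := ok_clo h
  have ad : Eqv71.Ad0 (⟨c.m, c.W, O.indicator c.Φ, 0⟩ : C0 Z κ lam) b.B b.G :=
    ⟨hc.ok, hc.conn, (Eqv71.Cb_ind (F := b.G.F.toPre) h.cl' (Cb_of_compact hc.sm)).choose_spec.1,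
      fun x => by by_cases hx : x ∈ O <;> simp [hx, hc.pos]⟩
  let o : Ref (cst T0 b.B b.G b.O O) :=
    { m := c.m, A0 := c.W, Φ0 := O.indicator c.Φ, ok := hc.ok, conn := hc.conn
      cp := Cb_of_compact hc.ok.sp, cρ := fun a => Cb_of_compact (hc.ok.sρ a)
      cj := Cb_of_compact hc.ok.sj, cA := fun a => Cb_of_compact (hc.conn.cc.sm a)
      cΦ := Cb_of_compact ad.sm
      pos := fun x => by by_cases hx : x ∈ O <;> simp [cst, hx, hc.pos] }
  let y : Pnt o 0 := pt0 o 0 (t := 0) trivial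
  have eW : y.cfg.W = c.W := funext₂ fun a x => by
    simpa [y, o, pt0, Pnt.cfg, Ref.W, Ref.A, Md.addC, Mod61.Fam.W0, cst] using hc.conn.cc.proj a x
  have e1 : noz y.cfg = ⟨c.m, c.W, O.indicator c.Φ, 0⟩ := by
    rw [noz, eW]
    exact congrArg (Cfg.mk c.m c.W · 0) (add_zero _)
  have e2 : Fs (cst T0 b.B b.G b.O O) = fun t => ((cst T0 b.B b.G b.O O).G t).F :=
    funext fun _ => rem_self _
  have e3 : ∃ u ζ, Mod61.EqOn b.B b.G.F b.O (⟨c.m, c.W, O.indicator c.Φ, 0⟩ : C0 Z κ lam)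
      (noz y.cfg) u ζ := by rw [e1]; exact ⟨_, _, Eqv71.ceq_refl h.B h.G ad h.cl.2⟩
  have he : Aff o (Fs _) 0 0 0 ((cst T0 b.B b.G b.O O).eq0 0 0 0) := (adj_rem H).aff_eq0
  refine ⟨n0 y, ?_, grC h hδ, o, 1, 0, 0, 0, _, ⟨⟨le_rfl, fun a => a.elim⟩, he, isEmptyElim⟩,
    e3, idx_of_fr H he hk y (e2 ▸ fr_n0 H y k)⟩
  have K := Num57.OK.of_base Z.dim h.B h.G
  have s : ∀ {f : Z.M → ℝ} (U), An.Sm Z.I f → IntegrableOn f U b.G.F.μ := fun _ hf =>
    (hf.continuous.integrable_of_hasCompactSupport (.of_compactSpace _)).integrableOn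
  have s1 := fun U => s U (sm_kd h.B h.G hc.ok hc.conn Z.dim)
  have s2 := fun U => s U (sm_eud K)
  have s3 := fun U => s U (sm_sgd K)
  have s4 := fun U => s U (sm_lad h.B h.G Z.dim)
  rw [n0_eq H Z.dim, eW]
  have i1 := integral_add ((s1 b.O).const_mul 8) ((((s2 b.O).add (s3 b.O)).const_mul 3).div_const 2).neg
  have i2 := integral_add ((s1 O).const_mul (-2)) (((s4 O).sub (s3 O)).div_const 2)
  rw [integral_const_mul] at i1 i2
  simp only [BG.top, BG.kap, BG.tA, BG.tD]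
  refine (congrArg₂ (· + ·) ((integral_congr_ae (.of_forall fun x => ?_)).trans i1)
    ((integral_congr_ae (.of_forall fun x => ?_)).trans i2)).trans ?_
  · exact sub_eq_add_neg _ _
  · simp only [cst, o, Pi.sub_apply]; ring
  · simp only [Pi.neg_apply, Pi.add_apply, Pi.sub_apply]; ring

end Crest.Agent.X212.Ixc61
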