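import Crest.Agent.X212.Nd18.Aps
import Crest.Agent.X212.End14.Cyl

/-! # Row 212, IND (helper61): **IX-CH**, from the points of a chart to standard configurations -/

set_option autoImplicit false
set_option linter.unusedSectionVars false
noncomputable section
open scoped Manifold ContDiff Topology InnerProductSpace
open MeasureTheory Set Function Filter

namespace Crest.Agent.X212.Ixc61
open An M Cyf70 Mod61 Nk89 Nd18 Sob92 End14 Bki64 Pj41 Neck67 Cmp73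

section gen
variable {E : Type} [NormedAddCommGroup E] [NormedSpace ℝ E] [FiniteDimensional ℝ E]
  [MeasurableSpace E] [BorelSpace E]
  {HM : Type} [TopologicalSpace HM] {I : ModelWithCorners ℝ E HM} [I.Boundaryless]
  {M : Type} [TopologicalSpace M] [ChartedSpace HM M] [IsManifold I ∞ M]
  [MeasurableSpace M] [T2Space M] [BorelSpace M] [SecondCountableTopology M]
  {κ lam : Type} [Fintype κ] [Fintype lam] {T : Type} [NormedAddCommGroup T] [NormedSpace ℝ T]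
  {𝔉 : Mod61.Fam I M (Option κ) lam T} {δ R : ℝ} {r r' k : ℕ} {o : Ref 𝔉}

theorem cl_pb {M' ι : Type} [Fintype ι] [TopologicalSpace M'] {F : Fr I M ι} {c : Cfg M' ι lam r}
    {c' : Cfg M ι lam r'} {f f' : M → M'} {u : M → CL c.m.V c'.m.V} {ζ : M → Circle} {O : Set M}
    {η : ℝ} (e : EqOn f' f O) (h : Cl F (pb f c) c' u ζ O k η) : Cl F (pb f' c) c' u ζ O k η := by
  refine ⟨h.op, ⟨h.iso.su, fun x hx => ?_, h.iso.J, fun x hx => ?_, fun x hx => ?_⟩,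
    fun a => (h.A a).congr h.op fun x hx => ?_, h.P.congr h.op fun x hx => ?_⟩
  · simp only [pb, pbM, e hx]; exact h.iso.iso x hx
  · simp only [pb, pbM, e hx]; exact h.iso.ρ x hx
  · simp only [pb, pbM, e hx]; exact h.iso.j x hx
  · simp only [dA, cov, pb, e hx]; rfl
  · simp only [dP, pb, e hx]; rfl

theorem ulim_rep (H : 𝔉.OK) {y : Pnt o r} {c : Cfg M (Option κ) lam r} {u : M → CL c.m.V o.m.V}
    {ζ : Circle} (e : Mod61.EqOn 𝔉.B (𝔉.G y.t).F 𝔉.Om c y.cfg u ζ) {α : Type} (l : Filter α) :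
    ULim I 𝔉.B l 𝔉.Om (fun _ => (𝔉.G y.t).F.e) (fun _ => c) y.cfg (fun _ => u) fun _ => ζ :=
  ⟨fun _ hx => ⟨_, H.Om.2, hx, .of_forall fun _ => e.m⟩,
    fun a => (Cv.const 0).congr' H.Om.2 (.of_forall fun _ x hx => (congrArg (· ∘L trn (u x))
      ((par0_iff ((IsConn.on (y.ad0 H).conn _).proj' H.B)).2 e.W x hx a)).trans
        (ContinuousLinearMap.zero_comp _)) fun _ _ => rfl,
    (Cv.fixed' (y.ad0 H).sm).congr' H.Om.2 (.of_forall fun _ x hx => (e.Φ x hx).symm)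
      fun _ _ => rfl, e.z ▸ tendsto_const_nhds⟩

/-- **uniqueness of limits** -/
theorem eqv_sl (X : Ends 𝔉 δ) (hl : X.Lit o R) {a : X.A} (ha : X.Act a) {P : End 𝔉}
    (hP : X.P a = P) {y : Pnt o r} {c : Cfg M (Option κ) lam r} (hc : Adm0 c 𝔉.B (𝔉.G y.t))
    (e : Nk89.Rep c y) {β : YC P.Y.M κ lam} (hβ : P.D.Adm β) {v : P.Y.M × ℝ → CL c.m.V β.m.V}
    {ξ : Circle} (hv : ∀ k, ∀ η > 0, ∀ᶠ s in atTop, Cl P.D.Z (P.K.pb (noz c)) (cy β) v (fun _ => ξ)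
      (win P.Y.M (P.sg * s) 1) k η) : P.D.Eqv (P.sl o (R + 1) y.t) β := by
  subst hP
  obtain ⟨u, ζ, e⟩ := e
  have H := X.ok
  have h := X.okP a
  have l := hl.lit a
  have h0 := adm_sl H h y.ht hl.le l
  have hn : ∀ᶠ q in (itU (pure () : Ultrafilter Unit) : Filter (Unit × ℕ)),
      ∀ z ∈ win (X.P a).Y.M ((X.P a).sg * q.2) 1, R < (X.P a).sg * z.2 :=
    ev_itU.2 ((hyp_top.eventually_ge_atTop (R + 1)).mono fun n hn =>
      .of_forall fun _ z hz => by linarith [(abs_lt.1 (mem_win.1 hz)).1])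
  obtain ⟨g, ξ', g1, -⟩ := step_fam h0 hβ (𝒰 := itU (pure ())) (s := fun q => (X.P a).sg * q.2)
    (c := fun _ => (X.P a).K.pb (noz c)) (u := fun _ z => u ((X.P a).K.ψ z)) (u' := fun _ => v)
    (ζ := fun _ => ζ) (ζ' := fun _ => ξ) one_half_lt_one one_pos
    (hn.mono fun q hq => (admOn_pb H h y.ht hc).mono fun z hz => hl.le.trans_lt (hq z hz))
    (fun k ε hε => (hn.and (cz_u X hl (.of_forall fun _ => ⟨y.ht, hc⟩) (ulim_rep H e _) ha k ε
      hε)).mono fun q hq => (cl_iff H h y.ht hl.le l (win_op _ _) hq.1 fun _ _ => rfl).2 hq.2)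
    fun k ε hε => ev_itU.2 ((hyp_top.eventually (hv k ε hε)).mono fun _ hn => .of_forall fun _ => hn)
  exact g1.eqv h.D h0 hβ

/-- the base point of a literal reference is standard -/
theorem eq_pt0 {P : End 𝔉} (hl : P.Lit o R) {t : T} (ht : t ∈ 𝔉.Q) {β : YC P.Y.M κ lam}
    (e : P.D.Eqv (P.sl o (R + 1) t) β) {f : P.Y.M × ℝ → M} {O : Set (P.Y.M × ℝ)}
    (hO : ∀ z ∈ O, R < P.sg * z.2 ∧ f z = P.K.ψ z) :
    ∃ w ζ, Mod61.EqOn P.D.B P.D.Z O (pb f (noz (pt0 o r ht).cfg)) (cy β) w ζ := by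
  obtain ⟨w, ζ, e⟩ := e
  have l := fun z hz => lit_eq hl ht (hO z hz).1 z.1
  have e1 : ∀ z ∈ O, P.pt (P.sg * z.2) z.1 = f z := fun z hz => by
    rw [End.pt, End14.sg_sg, (hO z hz).2]
  refine ⟨w, ζ, ⟨e.m.su.mono (subset_univ _), fun z hz => (e.m.uu z trivial).trans ?_,
    fun z _ => e.m.uu' z trivial, fun z _ => e.m.J z trivial,
    fun z hz b => (e.m.ρ z trivial b).trans ?_, fun z hz s => (e.m.j z trivial s).trans ?_⟩,
    fun z hz b => .trans ?_ (e.W z trivial b), fun z hz => (e.Φ z trivial).trans ?_,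
    Subsingleton.elim _ _⟩
  all_goals
    simp only [pb, pbM, noz, Pnt.cfg, pt0, ← e1 z hz, l z hz, Pi.add_apply, Pi.zero_apply, add_zero]
    rfl

end gen

variable {κ lam : Type} [Fintype κ] [Fintype lam] {Z : Mf 4}

/-- **IX-CH** -/
theorem chStmt {k : ℕ} (hk : 7 ≤ k) (hF : ∀ (T : Type) [NormedAddCommGroup T] [NormedSpace ℝ T]
    (𝔉 : Mod61.Fam Z.I Z.M (Option κ) lam T) δ (X : Ends 𝔉 δ), X.FredStmt)
    (hK : KapStmt Z κ lam) : ChStmt Z κ lam k := by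
  intro b O' δ g o R r n m e y c β d h ch hy rp hd hβ hc h0
  have H := g.X.ok
  have ad := (pt0 o r g.ht).ad0 H
  have hc' : Adm0 c g.𝔉.B (g.𝔉.G y.t) := by rwa [hy, g.hB, g.hG]
  refine ⟨noz (pt0 o r g.ht).cfg, ⟨?_, fun a => ?_⟩, ⟨g, o, R, r, n, m, e, ch, ?_, ?_⟩,
    fun O hO hs => ?_⟩
  · rw [← g.hB, ← g.hG]; exact ⟨ad.ok, ad.conn, ad.sm, ad.pos, .inl rfl⟩
  · obtain ⟨s₁, h1⟩ := g.hψ a
    obtain ⟨s₂, h2⟩ := h.en
    obtain ⟨hb, ζ, v, hv⟩ := hβ a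
    let P : End g.𝔉 := ⟨(b.E a).X.Y, (b.E a).X.D, g.K a, (b.E a).out⟩
    have l : P.Lit o R := (show _ = P from g.hP a) ▸ ch.lit.lit (g.f a)
    have k1 := eqv_sl g.X ch.lit (g.f a).2 (P := P) (g.hP a) hc' rp hb (v := v) (ξ := ζ)
      fun k η hη => by
        obtain ⟨S, k1, k2, k3⟩ := hv k η hη
        have k4 : ∀ᶠ s in atTop, P.sg * s ∈ S := by
          rcases End3.sg_cases P with k | k <;> simp only [k.2, one_mul, neg_one_mul]
          · exact k.1 ▸ k1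
          · exact tendsto_neg_atTop_atBot (k.1 ▸ k1)
        obtain ⟨s₀, k5⟩ := eventually_atTop.1 k4
        have k6 := cl_of_cls (c := (b.E a).K.pb (noz c)) hb ((((nk_gRel (b.E a).K).admOn_iff
          (c := noz c)).2 ⟨OK.on hc.ok _, IsConn.on hc.conn _, fun x _ => hc.sm x,
          fun x _ => hc.pos x, .inl rfl⟩).mono fun z hz => (b.E a).K.mem_src.2 (k2 hz.2))
          ⟨k3.op, k3.m, k3.A, k3.P⟩
        filter_upwards [eventually_ge_atTop (max s₀ s₁ + 1)] with s hs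
        have k7 : ∀ z ∈ win P.Y.M (P.sg * s) 1, max s₀ s₁ < P.sg * z.2 := fun z hz => by
          linarith [(abs_lt.1 (mem_win.1 hz)).1]
        exact cl_pb (fun z hz => h1 ⟨trivial, (le_max_right _ _).trans_lt (k7 z hz)⟩)
          (k6.mono (win_op _ _) (fun z hz => ⟨trivial, End14.sg_sg P z.2 ▸
            k5 _ ((le_max_left _ _).trans (k7 z hz).le)⟩) le_rfl le_rfl)
    rw [hy] at k1
    obtain ⟨w, ξ, k2⟩ := eq_pt0 (r := r) l g.ht k1 (f := (b.E a).K.ψ)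
      (O := univ ×ˢ (b.E a).ht (max R (max s₁ s₂))) fun z hz => ⟨(le_max_left _ _).trans_lt hz.2,
        (h1 ⟨trivial, (le_max_of_le_right (le_max_left s₁ s₂)).trans_lt hz.2⟩).symm⟩
    exact ⟨w, ξ, _, hb, fun s hs => (h2 a).1 ((le_max_of_le_right (le_max_right s₁ s₂)).trans_lt hs),
      k2⟩
  · have e1 : O'.indicator (pt0 o r g.ht).cfg.Φ = (pt0 o r g.ht).cfg.Φ :=
      indicator_eq_self.2 fun x hx => by_contra fun k => hx ((pt0 o r g.ht).off H x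
        (by rwa [g.hO']))
    rw [← g.hB, ← g.hG, ← g.hO, show O'.indicator (noz (pt0 o r g.ht).cfg).Φ = _ from e1]
    exact ⟨_, _, Eqv71.ceq_refl H.B (H.G _ g.ht) (c := noz (pt0 o r g.ht).cfg)
      ⟨ad.ok, ad.conn, ad.sm, ad.pos⟩ H.Om.2⟩
  · refine (hF _ _ _ g.X o R r n m k e hk ch.lit ch.aff y fun a ha => ?_).2 _ d hy.symm hd
    obtain ⟨a', e1⟩ := g.f.surjective ⟨a, ha⟩
    have k : ∀ P : End g.𝔉, P = ⟨_, _, g.K a', (b.E a').out⟩ → ∀ h h0, ∃ eZ,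
        CylOK (δ := δ) h h0 k eZ ∧ P.Loc o k δ R e g.t h h0 eZ := by
      rintro _ rfl h h0; exact ⟨_, ch.loc a' h h0⟩
    exact hy ▸ k _ ((congrArg (g.X.P ·.1) e1).symm.trans (g.hP a'))
  · obtain ⟨u, ζ, e⟩ := rp
    have k1 := hK _ _ _ g.X o R r y O ch.lit hO (g.hO ▸ hs)
    have k2 := (Eqv71.lg_refl H.B (H.G _ y.ht) H.Om.2).of_ceq ⟨hc'.ok, hc'.conn, hc'.sm, hc'.pos⟩
      (y.ad0 H) e
    have k3 := k1.symm.trans (setIntegral_congr_fun hO.2.measurableSet fun x hx =>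
      k2.kd (by rw [g.hO]; exact hs hx))
    rw [show pt0 o r y.ht = pt0 o r g.ht by simp only [pt0, hy], hy, g.hB, g.hG] at k3
    exact k3

end Crest.Agent.X212.Ixc61
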